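import Mathlib

/-!
# P247: hypersymplectic triples on flat four-tori

A two-form at a point is a function `Fin 4 → Fin 4 → ℝ`. A triple in the class of the standard hyperkaehler
triple is written as that triple plus the exterior derivative of three periodic one-forms.
-/

open Set

namespace Vale.Agent.P247

noncomputable section

/-- Coordinate space of the torus. -/
abbrev R4 := Fin 4 → ℝ

/-- Two-forms at a point. -/
abbrev Form := Fin 4 → Fin 4 → ℝ

/-- The coordinate vectors. -/
def ev (i : Fin 4) : R4 := Pi.single i 1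

/-- The coefficient of the wedge product on the standard volume form. -/
def wedge (u v : Form) : ℝ :=
  u 0 1 * v 2 3 + u 2 3 * v 0 1 - u 0 2 * v 1 3 - u 1 3 * v 0 2 + u 0 3 * v 1 2 + u 1 2 * v 0 3

/-- The two-form `dxᵢ ∧ dxⱼ`. -/
def elemForm (i j : Fin 4) : Form := fun k l => ev i k * ev j l - ev j k * ev i l

/-- The standard hyperkaehler triple. -/
def hk0 : Fin 3 → Form :=
  ![elemForm 0 1 + elemForm 2 3, elemForm 0 2 + elemForm 3 1, elemForm 0 3 + elemForm 1 2]

/-- The exterior derivative of a one-form. -/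
def dOne (α : R4 → R4) (x : R4) : Form := fun i j => fderiv ℝ α x (ev i) j - fderiv ℝ α x (ev j) i

/-- The triple `hk0 + dα`. -/
def triple (α : Fin 3 → R4 → R4) (x : R4) : Fin 3 → Form := fun i => hk0 i + dOne (α i) x

/-- Positive definiteness of the span of a triple. -/
def Hyper (ω : Fin 3 → Form) : Prop :=
  ∀ a : Fin 3 → ℝ, a ≠ 0 → 0 < wedge (∑ i, a i • ω i) (∑ i, a i • ω i)

/-- The hyperkaehler condition on a triple at a point. -/
def IsHK (ω : Fin 3 → Form) : Prop :=
  ∃ μ : ℝ, 0 < μ ∧ ∀ i j, wedge (ω i) (ω j) = if i = j then 2 * μ else 0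

/-- A cohomologous deformation of `hk0 + dα` into a hyperkaehler triple. -/
def Deforms (P : Fin 4 → R4) (α : Fin 3 → R4 → R4) : Prop :=
  ∃ β : ℝ → Fin 3 → R4 → R4, (∀ i, ∀ n : ℕ, ContDiff ℝ n fun z : ℝ × R4 => β z.1 i z.2) ∧
    (∀ t i k x, β t i (x + P k) = β t i x) ∧ (∀ x, triple (β 0) x = triple α x) ∧
    (∀ t ∈ Icc (0 : ℝ) 1, ∀ x, Hyper (triple (β t) x)) ∧ ∀ x, IsHK (triple (β 1) x)

end

end Vale.Agent.P247
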