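import Mathlib
import Vale.Agent.P247.Basic

/-!
# P247: averaging over the first circle
-/

open Set MeasureTheory
open scoped Topology

namespace Vale.Agent.P247

noncomputable section

variable {E : Type} [NormedAddCommGroup E] [NormedSpace ℝ E] [CompleteSpace E]

/-- The average over translations in the first coordinate. -/
def avg (c : ℝ) (F : R4 → E) (x : R4) : E := c⁻¹ • ∫ s in (0:ℝ)..c, F (x + s • ev 0)

theorem hasFDerivAt_avg (c : ℝ) {F : R4 → E} (hF : ContDiff ℝ (1 : ℕ) F) (x : R4) :
    HasFDerivAt (avg c F) (avg c (fderiv ℝ F) x) x := by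
  have hdF : Continuous (fderiv ℝ F) := hF.continuous_fderiv (by norm_num)
  have hcont : ∀ y : R4, Continuous fun s : ℝ => F (y + s • ev 0) := fun y => hF.continuous.comp (by fun_prop)
  have hcomp : IsCompact (Metric.closedBall x 1 ×ˢ uIcc (0:ℝ) c) := (isCompact_closedBall x 1).prod isCompact_uIcc
  obtain ⟨K, hK⟩ := hcomp.exists_bound_of_continuousOn
    (f := fun z : R4 × ℝ => fderiv ℝ F (z.1 + z.2 • ev 0)) (hdF.comp (by fun_prop)).continuousOn
  refine HasFDerivAt.const_smul ?_ c⁻¹
  exact intervalIntegral.hasFDerivAt_integral_of_dominated_of_fderiv_le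
    (F := fun y s => F (y + s • ev 0)) (F' := fun y s => fderiv ℝ F (y + s • ev 0)) (bound := fun _ => K)
    (Metric.closedBall_mem_nhds x one_pos) (Filter.Eventually.of_forall fun y => (hcont y).aestronglyMeasurable)
    ((hcont x).intervalIntegrable _ _) (hdF.comp (by fun_prop : Continuous fun s : ℝ => x + s • ev 0)).aestronglyMeasurable
    (Filter.Eventually.of_forall fun s hs y hy => hK (y, s) ⟨hy, uIoc_subset_uIcc hs⟩) intervalIntegrable_const
    (Filter.Eventually.of_forall fun s _ y _ =>
      (hasFDerivAt_comp_add_right (s • ev 0)).2 ((hF.differentiable (by norm_num)) _).hasFDerivAt)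

theorem contDiff_avg (c : ℝ) (n : ℕ) :
    ∀ {E : Type} [NormedAddCommGroup E] [NormedSpace ℝ E] [CompleteSpace E] {F : R4 → E},
      (∀ m : ℕ, ContDiff ℝ m F) → ContDiff ℝ n (avg c F) := by
  induction n with
  | zero =>
    intro E _ _ _ F hF
    refine contDiff_zero.2 (continuous_iff_continuousAt.2 fun x => ?_)
    exact (hasFDerivAt_avg c (hF 1) x).continuousAt
  | succ n ih =>
    intro E _ _ _ F hF
    rw [show ((n + 1 : ℕ) : WithTop ℕ∞) = (n : WithTop ℕ∞) + 1 by norm_cast, contDiff_succ_iff_fderiv]
    refine ⟨fun x => (hasFDerivAt_avg c (hF 1) x).differentiableAt, by simp, ?_⟩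
    rw [show fderiv ℝ (avg c F) = avg c (fderiv ℝ F) from funext fun x => (hasFDerivAt_avg c (hF 1) x).fderiv]
    exact ih fun m => (hF (m + 1)).fderiv_right (by norm_cast)

theorem avg_periodic (c : ℝ) {F : R4 → E} {v : R4} (h : ∀ x, F (x + v) = F x) (x : R4) :
    avg c F (x + v) = avg c F x := by
  simp only [avg]
  congr 2; funext s
  rw [show x + v + s • ev 0 = x + s • ev 0 + v by abel, h]

theorem avg_invariant (c : ℝ) {F : R4 → E} (h : ∀ x, F (x + c • ev 0) = F x) (x : R4) (r : ℝ) :
    avg c F (x + r • ev 0) = avg c F x := by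
  simp only [avg]
  congr 1
  have hp : Function.Periodic (fun s => F (x + s • ev 0)) c := fun s => by
    simp only [add_smul, ← add_assoc, h]
  have e : ∀ s, F (x + r • ev 0 + s • ev 0) = (fun s => F (x + s • ev 0)) (s + r) := fun s => by
    simp only [add_smul]; congr 1; abel
  simp only [e]
  rw [intervalIntegral.integral_comp_add_right (fun s => F (x + s • ev 0)), zero_add, add_comm c r,
    hp.intervalIntegral_add_eq r 0, zero_add]

/-- The linear map from a derivative to the exterior derivative. -/
def skewPart : (R4 →L[ℝ] R4) →L[ℝ] Form :=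
  LinearMap.toContinuousLinearMap
    { toFun := fun A => fun i j => A (ev i) j - A (ev j) i
      map_add' := fun A B => by ext i j; simp; ring
      map_smul' := fun m A => by ext i j; simp; ring }

theorem dOne_eq (α : R4 → R4) (x : R4) : dOne α x = skewPart (fderiv ℝ α x) := rfl

theorem dOne_avg (c : ℝ) {α : R4 → R4} (hα : ∀ n : ℕ, ContDiff ℝ n α) (x : R4) :
    dOne (avg c α) x = avg c (dOne α) x := by
  have hcont : Continuous fun s : ℝ => fderiv ℝ α (x + s • ev 0) :=
    ((hα 1).continuous_fderiv (by norm_num)).comp (by fun_prop)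
  have := skewPart.intervalIntegral_comp_comm (hcont.intervalIntegrable (μ := volume) 0 c)
  rw [dOne_eq, (hasFDerivAt_avg c (hα 1) x).fderiv]
  simp only [avg, map_smul, ← this]
  rfl

end

end Vale.Agent.P247
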