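import Mathlib
import Vale.Agent.P247.Basic

/-!
# P247: linear algebra of positive triples in signature (3,3)
-/

open Set MeasureTheory
open scoped Topology

namespace Vale.Agent.P247

noncomputable section

theorem wedge_comm (u v : Form) : wedge u v = wedge v u := by simp only [wedge]; ring

/-- No four mutually orthogonal two-forms have positive square. -/
theorem no_four {u : Fin 4 → Form} (hpos : ∀ i, 0 < wedge (u i) (u i)) (horth : ∀ i j, i ≠ j → wedge (u i) (u j) = 0) :
    False := by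
  let T : Fin 4 → Fin 3 → ℝ := fun i => ![u i 0 1 + u i 2 3, u i 0 2 - u i 1 3, u i 0 3 + u i 1 2]
  have hdep : ¬ LinearIndependent ℝ T := fun h => by
    have := h.fintype_card_le_finrank
    simp at this
  obtain ⟨a, ha, i₀, hi₀⟩ := Fintype.not_linearIndependent_iff.1 hdep
  obtain ⟨v, hv⟩ : ∃ v : Form, ∑ i, a i • u i = v := ⟨_, rfl⟩
  have hz : v 0 1 + v 2 3 = 0 ∧ v 0 2 - v 1 3 = 0 ∧ v 0 3 + v 1 2 = 0 := by
    subst hv
    have e0 := congrFun ha 0
    have e1 := congrFun ha 1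
    have e2 := congrFun ha 2
    simp [T, Fin.sum_univ_four] at e0 e1 e2
    simp [Fin.sum_univ_four]
    refine ⟨?_, ?_, ?_⟩ <;> linarith
  have hle : wedge v v ≤ 0 := by
    obtain ⟨h1, h2, h3⟩ := hz
    simp only [wedge, show v 2 3 = -v 0 1 by linarith, show v 1 3 = v 0 2 by linarith,
      show v 1 2 = -v 0 3 by linarith]
    linarith [mul_self_nonneg (v 0 1), mul_self_nonneg (v 0 2), mul_self_nonneg (v 0 3)]
  have hexp : wedge v v = ∑ i, a i ^ 2 * wedge (u i) (u i) := by
    have hb : wedge v v = ∑ i, ∑ j, a i * a j * wedge (u i) (u j) := by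
      subst hv; simp [wedge, Fin.sum_univ_four]; ring
    rw [hb]
    refine Finset.sum_congr rfl fun i _ => ?_
    rw [Finset.sum_eq_single i (fun j _ hj => by rw [horth i j hj.symm, mul_zero]) (by simp)]
    ring
  have : 0 < ∑ i, a i ^ 2 * wedge (u i) (u i) :=
    Finset.sum_pos' (fun i _ => mul_nonneg (sq_nonneg _) (hpos i).le)
      ⟨i₀, Finset.mem_univ _, mul_pos (by positivity) (hpos i₀)⟩
  linarith

/-- The second of two forms, made orthogonal to the first. -/
def second (u₁ u₂ : Form) : Form := u₂ - (wedge u₂ u₁ / wedge u₁ u₁) • u₁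

/-- The projection to the complement of two forms. -/
def proj (u₁ u₂ v : Form) : Form :=
  v - (wedge v u₁ / wedge u₁ u₁) • u₁ - (wedge v (second u₁ u₂) / wedge (second u₁ u₂) (second u₁ u₂)) • second u₁ u₂

theorem proj_add (u₁ u₂ v v' : Form) (t t' : ℝ) :
    proj u₁ u₂ (t • v + t' • v') = t • proj u₁ u₂ v + t' • proj u₁ u₂ v' := by
  have h : ∀ f, wedge (t • v + t' • v') f = t * wedge v f + t' * wedge v' f := fun f => by
    simp [wedge]; ring
  simp only [proj, h]
  generalize second u₁ u₂ = f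
  ext k l; simp; ring

variable {u₁ u₂ v v' : Form}

theorem Hyper.first (h : Hyper ![u₁, u₂, v]) : 0 < wedge u₁ u₁ := by
  have := h ![1, 0, 0] (fun e => by simpa using congrFun e 0)
  simpa [Fin.sum_univ_three] using this

theorem Hyper.second_pos (h : Hyper ![u₁, u₂, v]) : 0 < wedge (second u₁ u₂) (second u₁ u₂) := by
  have := h ![-(wedge u₂ u₁ / wedge u₁ u₁), 1, 0] (fun e => by simpa using congrFun e 1)
  have e : second u₁ u₂ = ∑ i, ![-(wedge u₂ u₁ / wedge u₁ u₁), 1, 0] i • ![u₁, u₂, v] i := by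
    simp only [second, Fin.sum_univ_three, Matrix.cons_val_zero, Matrix.cons_val_one, Matrix.cons_val]
    module
  rwa [← e] at this

theorem Hyper.proj_pos (h : Hyper ![u₁, u₂, v]) : 0 < wedge (proj u₁ u₂ v) (proj u₁ u₂ v) := by
  set c₁ := wedge v u₁ / wedge u₁ u₁ with hc₁
  set d := wedge u₂ u₁ / wedge u₁ u₁ with hd
  set c₂ := wedge v (second u₁ u₂) / wedge (second u₁ u₂) (second u₁ u₂) with hc₂
  have := h ![-c₁ + c₂ * d, -c₂, 1] (fun e => by simpa using congrFun e 2)
  have e : proj u₁ u₂ v = ∑ i, ![-c₁ + c₂ * d, -c₂, 1] i • ![u₁, u₂, v] i := by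
    simp only [proj, ← hc₁, ← hc₂, Fin.sum_univ_three, Matrix.cons_val_zero, Matrix.cons_val_one, Matrix.cons_val]
    simp only [second, ← hd]
    module
  rwa [← e] at this

theorem orth_second (h1 : 0 < wedge u₁ u₁) : wedge (second u₁ u₂) u₁ = 0 := by
  have : wedge (second u₁ u₂) u₁ = wedge u₂ u₁ - wedge u₂ u₁ / wedge u₁ u₁ * wedge u₁ u₁ := by
    simp [second, wedge]; ring
  rw [this, div_mul_cancel₀ _ h1.ne', sub_self]

theorem orth_proj (h1 : 0 < wedge u₁ u₁) (h2 : 0 < wedge (second u₁ u₂) (second u₁ u₂)) (v : Form) :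
    wedge (proj u₁ u₂ v) u₁ = 0 ∧ wedge (proj u₁ u₂ v) (second u₁ u₂) = 0 := by
  have hs := orth_second (u₂ := u₂) h1
  constructor
  · have : wedge (proj u₁ u₂ v) u₁ = wedge v u₁ - wedge v u₁ / wedge u₁ u₁ * wedge u₁ u₁ -
        wedge v (second u₁ u₂) / wedge (second u₁ u₂) (second u₁ u₂) * wedge (second u₁ u₂) u₁ := by
      simp [proj, wedge]; ring
    rw [this, hs, div_mul_cancel₀ _ h1.ne']; ring
  · have : wedge (proj u₁ u₂ v) (second u₁ u₂) = wedge v (second u₁ u₂) -
        wedge v u₁ / wedge u₁ u₁ * wedge u₁ (second u₁ u₂) -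
        wedge v (second u₁ u₂) / wedge (second u₁ u₂) (second u₁ u₂) * wedge (second u₁ u₂) (second u₁ u₂) := by
      simp [proj, wedge]; ring
    rw [this, wedge_comm u₁ (second u₁ u₂), hs, div_mul_cancel₀ _ h2.ne']; ring

theorem hyper_of_proj_pos (h1 : 0 < wedge u₁ u₁) (h2 : 0 < wedge (second u₁ u₂) (second u₁ u₂))
    (hv : 0 < wedge (proj u₁ u₂ v) (proj u₁ u₂ v)) : Hyper ![u₁, u₂, v] := by
  intro a ha
  set c₁ := wedge v u₁ / wedge u₁ u₁ with hc₁
  set d := wedge u₂ u₁ / wedge u₁ u₁ with hd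
  set c₂ := wedge v (second u₁ u₂) / wedge (second u₁ u₂) (second u₁ u₂) with hc₂
  have e : ∑ i, a i • ![u₁, u₂, v] i =
      (a 0 + a 1 * d + a 2 * c₁) • u₁ + (a 1 + a 2 * c₂) • second u₁ u₂ + a 2 • proj u₁ u₂ v := by
    simp only [proj, ← hc₁, ← hc₂, Fin.sum_univ_three, Matrix.cons_val_zero, Matrix.cons_val_one, Matrix.cons_val]
    simp only [second, ← hd]
    module
  obtain ⟨o1, o2⟩ := orth_proj h1 h2 v
  have key : ∀ (A B C : ℝ) (f g : Form), wedge (A • u₁ + B • f + C • g) (A • u₁ + B • f + C • g) =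
      A ^ 2 * wedge u₁ u₁ + B ^ 2 * wedge f f + C ^ 2 * wedge g g + 2 * A * B * wedge f u₁ + 2 * A * C * wedge g u₁ +
        2 * B * C * wedge g f := fun A B C f g => by simp [wedge]; ring
  rw [e, key, o1, o2, orth_second h1]
  by_contra hle
  have t1 := mul_nonneg (sq_nonneg (a 0 + a 1 * d + a 2 * c₁)) h1.le
  have t2 := mul_nonneg (sq_nonneg (a 1 + a 2 * c₂)) h2.le
  have t3 := mul_nonneg (sq_nonneg (a 2)) hv.le
  have z3 : a 2 = 0 := by
    simpa using (mul_eq_zero.1 (by linarith : a 2 ^ 2 * wedge (proj u₁ u₂ v) (proj u₁ u₂ v) = 0)).resolve_right hv.ne'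
  have z2 : a 1 + a 2 * c₂ = 0 := by
    simpa using (mul_eq_zero.1
      (by linarith : (a 1 + a 2 * c₂) ^ 2 * wedge (second u₁ u₂) (second u₁ u₂) = 0)).resolve_right h2.ne'
  have z1 : a 0 + a 1 * d + a 2 * c₁ = 0 := by
    simpa using (mul_eq_zero.1 (by linarith : (a 0 + a 1 * d + a 2 * c₁) ^ 2 * wedge u₁ u₁ = 0)).resolve_right h1.ne'
  have hy : a 1 = 0 := by rw [z3, zero_mul, add_zero] at z2; exact z2
  have hx : a 0 = 0 := by rw [z3, hy, zero_mul, zero_mul, add_zero, add_zero] at z1; exact z1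
  exact ha (funext fun i => by fin_cases i <;> assumption)

theorem mixed_ne_zero (h : Hyper ![u₁, u₂, v]) (h' : Hyper ![u₁, u₂, v']) :
    wedge (proj u₁ u₂ v) (proj u₁ u₂ v') ≠ 0 := fun h0 => by
  obtain ⟨o1, o2⟩ := orth_proj h.first h.second_pos v
  obtain ⟨o1', o2'⟩ := orth_proj h.first h.second_pos v'
  have hs := orth_second (u₂ := u₂) h.first
  refine no_four (u := ![u₁, second u₁ u₂, proj u₁ u₂ v, proj u₁ u₂ v']) (fun i => ?_) fun i j hij => ?_
  · fin_cases i <;> simp [h.first, h.second_pos, h.proj_pos, h'.proj_pos]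
  · fin_cases i <;> fin_cases j <;> first | exact absurd rfl hij | skip
    all_goals first
      | simpa using hs | simpa using o1 | simpa using o2 | simpa using o1' | simpa using o2' | simpa using h0
      | (rw [wedge_comm]; first
          | simpa using hs | simpa using o1 | simpa using o2 | simpa using o1' | simpa using o2' | simpa using h0)

/-- A continuous family of admissible third forms keeps one time orientation. -/
theorem mixed_pos {V : ℝ → Form} (hV : Continuous V) (h : ∀ s, Hyper ![u₁, u₂, V s]) (s r : ℝ) :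
    0 < wedge (proj u₁ u₂ (V s)) (proj u₁ u₂ (V r)) := by
  by_contra hle
  have hc : Continuous fun t => wedge (proj u₁ u₂ (V t)) (proj u₁ u₂ (V r)) := by
    simp only [wedge, proj, Pi.sub_apply, Pi.smul_apply, smul_eq_mul]; fun_prop
  obtain ⟨t, -, ht⟩ := intermediate_value_univ s r hc ⟨not_lt.1 hle, (h r).proj_pos.le⟩ |>.imp
    fun t ht => And.intro trivial ht
  exact mixed_ne_zero (h t) (h r) ht

/-- The average of a family of admissible third forms is admissible, as is the segment to it. -/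
theorem hyper_average {V : ℝ → Form} (hV : Continuous V) (h : ∀ s, Hyper ![u₁, u₂, V s]) {c : ℝ} (hc : 0 < c)
    {τ : ℝ} (hτ : τ ∈ Icc (0 : ℝ) 1) :
    Hyper ![u₁, u₂, (1 - τ) • V 0 + τ • (c⁻¹ • ∫ s in (0:ℝ)..c, V s)] := by
  have h1 := (h 0).first
  have h2 := (h 0).second_pos
  set W := c⁻¹ • ∫ s in (0:ℝ)..c, V s with hW
  have hlin : ∀ r : Form, wedge (proj u₁ u₂ W) r = c⁻¹ * ∫ s in (0:ℝ)..c, wedge (proj u₁ u₂ (V s)) r := by
    intro r
    let L : Form →ₗ[ℝ] ℝ :=
      { toFun := fun v => wedge (proj u₁ u₂ v) r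
        map_add' := fun x y => by
          have := proj_add u₁ u₂ x y 1 1
          simp only [one_smul] at this
          rw [this]; simp [wedge]; ring
        map_smul' := fun m x => by
          have := proj_add u₁ u₂ x x m 0
          simp only [zero_smul, add_zero] at this
          rw [this]; simp [wedge]; ring }
    have hcomm := L.toContinuousLinearMap.intervalIntegral_comp_comm
      (hV.intervalIntegrable (μ := volume) 0 c)
    change L W = c⁻¹ * ∫ s in (0:ℝ)..c, L.toContinuousLinearMap (V s)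
    rw [hcomm, hW, map_smul]
    rfl
  have hpos : ∀ r : ℝ, 0 < wedge (proj u₁ u₂ W) (proj u₁ u₂ (V r)) := fun r => by
    rw [hlin]
    refine mul_pos (inv_pos.2 hc) (intervalIntegral.intervalIntegral_pos_of_pos_on ?_ (fun s _ => mixed_pos hV h s r) hc)
    exact (by simp only [wedge, proj, Pi.sub_apply, Pi.smul_apply, smul_eq_mul]; fun_prop :
      Continuous fun s => wedge (proj u₁ u₂ (V s)) (proj u₁ u₂ (V r))).intervalIntegrable _ _
  have hWW : 0 < wedge (proj u₁ u₂ W) (proj u₁ u₂ W) := by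
    rw [hlin]
    refine mul_pos (inv_pos.2 hc)
      (intervalIntegral.intervalIntegral_pos_of_pos_on ?_ (fun s _ => by rw [wedge_comm]; exact hpos s) hc)
    exact (by simp only [wedge, proj, Pi.sub_apply, Pi.smul_apply, smul_eq_mul]; fun_prop :
      Continuous fun s => wedge (proj u₁ u₂ (V s)) (proj u₁ u₂ W)).intervalIntegrable _ _
  refine hyper_of_proj_pos h1 h2 ?_
  have e : ∀ A B : Form, wedge ((1 - τ) • A + τ • B) ((1 - τ) • A + τ • B) =
      (1 - τ) ^ 2 * wedge A A + 2 * (τ * (1 - τ)) * wedge B A + τ ^ 2 * wedge B B := fun A B => by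
    simp [wedge]; ring
  rw [proj_add, e]
  have t2 : 0 ≤ 2 * (τ * (1 - τ)) * wedge (proj u₁ u₂ W) (proj u₁ u₂ (V 0)) :=
    mul_nonneg (mul_nonneg two_pos.le (mul_nonneg hτ.1 (by linarith [hτ.2]))) (hpos 0).le
  rcases eq_or_ne τ 0 with rfl | hne
  · simp [(h 0).proj_pos]
  · have := mul_pos (by positivity : 0 < τ ^ 2) hWW
    linarith [mul_nonneg (sq_nonneg (1 - τ)) (h 0).proj_pos.le]

/-- Moving a triple inside a fixed set of mixed components is convex. -/
theorem hyper_segment {ω ω' : Fin 3 → Form}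
    (he : ∀ i, ω i 0 1 = ω' i 0 1 ∧ ω i 0 2 = ω' i 0 2 ∧ ω i 0 3 = ω' i 0 3)
    (h : Hyper ω) (h' : Hyper ω') {τ : ℝ} (hτ : τ ∈ Icc (0 : ℝ) 1) :
    Hyper fun i => (1 - τ) • ω i + τ • ω' i := by
  intro a ha
  have := h a ha
  have := h' a ha
  have e : wedge (∑ i, a i • ((1 - τ) • ω i + τ • ω' i)) (∑ i, a i • ((1 - τ) • ω i + τ • ω' i)) =
      (1 - τ) * wedge (∑ i, a i • ω i) (∑ i, a i • ω i) + τ * wedge (∑ i, a i • ω' i) (∑ i, a i • ω' i) := by
    simp [wedge, Fin.sum_univ_three, he]; ring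
  rw [e]
  rcases eq_or_ne τ 0 with rfl | hne
  · linarith
  · have : 0 < τ := lt_of_le_of_ne hτ.1 hne.symm
    have := mul_pos this (h' a ha)
    linarith [mul_nonneg (by linarith [hτ.2] : 0 ≤ 1 - τ) (h a ha).le]

end

end Vale.Agent.P247
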