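import Mathlib
import Vale.Agent.P247.Basic
import Vale.Agent.P247.Pointwise

/-!
# P247: the hyperkaehler endpoint and the sign of its volume
-/

open Set MeasureTheory

namespace Vale.Agent.P247

noncomputable section

/-- Smoothness of all finite orders. -/
def Smooth {E : Type} [NormedAddCommGroup E] [NormedSpace ℝ E] (f : R4 → E) : Prop := ∀ n : ℕ, ContDiff ℝ n f

theorem Smooth.diff {E : Type} [NormedAddCommGroup E] [NormedSpace ℝ E] {f : R4 → E} (hf : Smooth f) :
    Differentiable ℝ f := (hf 1).differentiable (by norm_num)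

/-- The partial derivative in a coordinate direction. -/
def pd (f : R4 → ℝ) (i : Fin 4) (x : R4) : ℝ := fderiv ℝ f x (ev i)

/-- The gradient as a coordinate vector. -/
def grad (f : R4 → ℝ) (x : R4) : R4 := fun i => pd f i x

theorem Smooth.pd {f : R4 → ℝ} (hf : Smooth f) (i : Fin 4) : Smooth (pd f i) := fun n =>
  ((hf (n + 1)).fderiv_right (by norm_cast)).clm_apply contDiff_const

theorem Smooth.grad {f : R4 → ℝ} (hf : Smooth f) : Smooth (grad f) := fun n => contDiff_pi.2 fun i => hf.pd i n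

theorem pd_pd {f : R4 → ℝ} (hf : Smooth f) (i j : Fin 4) (x : R4) : pd (pd f i) j x = pd (pd f j) i x := by
  have h2 := (hf 2).contDiffAt.isSymmSndFDerivAt (x := x) (by simp)
  have hd : DifferentiableAt ℝ (fderiv ℝ f) x :=
    (((hf 2).fderiv_right (m := 1) (by norm_num)).differentiable (by norm_num)) x
  have e : ∀ i j, pd (pd f i) j x = fderiv ℝ (fderiv ℝ f) x (ev j) (ev i) := fun i j => by
    simp only [P247.pd]
    change fderiv ℝ (fun y => fderiv ℝ f y (ev i)) x (ev j) = _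
    rw [fderiv_clm_apply hd (differentiableAt_const _)]; simp
  rw [e, e, h2]

theorem dOne_comp {f : R4 → R4} (hf : Smooth f) (x : R4) (i j : Fin 4) :
    dOne f x i j = pd (fun y => f y j) i x - pd (fun y => f y i) j x := by
  have e : ∀ (a : Fin 4) (v : R4), fderiv ℝ f x v a = fderiv ℝ (fun y => f y a) x v := fun a v => by
    rw [fderiv_apply (hf.diff x) a]; rfl
  simp only [dOne, P247.pd, e]

theorem dOne_smul_grad {f g : R4 → ℝ} (hf : Smooth f) (hg : Smooth g) (x : R4) (m n : Fin 4) :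
    dOne (fun y => f y • grad g y) x m n = pd f m x * pd g n x - pd f n x * pd g m x := by
  rw [dOne_comp (f := fun y => f y • grad g y) fun k => (hf k).smul (hg.grad k)]
  have e : ∀ a b, pd (fun y => (f y • grad g y) a) b x = f x * pd (pd g a) b x + pd f b x * pd g a x := fun a b => by
    simp only [P247.pd]
    change fderiv ℝ (fun y => f y * pd g a y) x (ev b) = _
    rw [fderiv_fun_mul (hf.diff x) ((hg.pd a).diff x)]
    simp [P247.pd]; ring
  rw [e, e, pd_pd hg n m]; ring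

theorem dOne_smul_const {f : R4 → ℝ} (hf : Smooth f) (w : R4) (x : R4) (m n : Fin 4) :
    dOne (fun y => f y • w) x m n = pd f m x * w n - pd f n x * w m := by
  simp only [dOne, P247.pd, fderiv_smul_const (hf.diff x), ContinuousLinearMap.smulRight_apply, Pi.smul_apply,
    smul_eq_mul]

variable (μ : Fin 3 → R4 → ℝ)

/-- The differential of `x ↦ x + μ x` on the last three coordinates. -/
def jac (x : R4) (i l : Fin 3) : ℝ := (if i = l then 1 else 0) + pd (μ i) l.succ x

/-- Its determinant. -/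
def jdet (x : R4) : ℝ :=
  jac μ x 0 0 * (jac μ x 1 1 * jac μ x 2 2 - jac μ x 1 2 * jac μ x 2 1) -
    jac μ x 0 1 * (jac μ x 1 0 * jac μ x 2 2 - jac μ x 1 2 * jac μ x 2 0) +
    jac μ x 0 2 * (jac μ x 1 0 * jac μ x 2 1 - jac μ x 1 1 * jac μ x 2 0)

/-- The primitive of the hyperkaehler endpoint. -/
def endPrim (i : Fin 3) (x : R4) : R4 :=
  (-μ i x) • ev 0 + μ (i + 1) x • ev (i + 2).succ + μ (i + 1) x • grad (μ (i + 2)) x +
    (-μ (i + 2) x) • ev (i + 1).succ

variable {μ} (hμ : ∀ i, Smooth (μ i))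
include hμ

theorem smooth_endPrim (i : Fin 3) : Smooth (endPrim μ i) := fun n =>
  ((((hμ i n).neg.smul contDiff_const).add ((hμ (i + 1) n).smul contDiff_const)).add
    ((hμ (i + 1) n).smul ((hμ (i + 2)).grad n))).add ((hμ (i + 2) n).neg.smul contDiff_const)

theorem dOne_endPrim (i : Fin 3) (x : R4) (m n : Fin 4) :
    dOne (endPrim μ i) x m n =
      (-(pd (μ i) m x) * ev 0 n + pd (μ i) n x * ev 0 m) +
      (pd (μ (i + 1)) m x * ev (i + 2).succ n - pd (μ (i + 1)) n x * ev (i + 2).succ m) +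
      (pd (μ (i + 1)) m x * pd (μ (i + 2)) n x - pd (μ (i + 1)) n x * pd (μ (i + 2)) m x) +
      (-(pd (μ (i + 2)) m x) * ev (i + 1).succ n + pd (μ (i + 2)) n x * ev (i + 1).succ m) := by
  have hn : ∀ j, Smooth fun y => -μ j y := fun j k => (hμ j k).neg
  have hA : Smooth fun y => (-μ i y) • ev 0 := fun k => (hn i k).smul contDiff_const
  have hB : Smooth fun y => μ (i + 1) y • ev (i + 2).succ := fun k => (hμ (i + 1) k).smul contDiff_const
  have hC : Smooth fun y => μ (i + 1) y • grad (μ (i + 2)) y := fun k => (hμ (i + 1) k).smul ((hμ (i + 2)).grad k)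
  have hD : Smooth fun y => (-μ (i + 2) y) • ev (i + 1).succ := fun k => (hn (i + 2) k).smul contDiff_const
  have hAB : Smooth fun y => (-μ i y) • ev 0 + μ (i + 1) y • ev (i + 2).succ := fun k => (hA k).add (hB k)
  have hABC : Smooth fun y => (-μ i y) • ev 0 + μ (i + 1) y • ev (i + 2).succ + μ (i + 1) y • grad (μ (i + 2)) y :=
    fun k => (hAB k).add (hC k)
  have hadd : ∀ f g : R4 → R4, Smooth f → Smooth g → dOne (fun y => f y + g y) x m n = dOne f x m n + dOne g x m n :=
    fun f g hf hg => by simp only [dOne, fderiv_fun_add (hf.diff x) (hg.diff x), add_apply, Pi.add_apply]; ring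
  change dOne (fun y => (-μ i y) • ev 0 + μ (i + 1) y • ev (i + 2).succ + μ (i + 1) y • grad (μ (i + 2)) y +
    (-μ (i + 2) y) • ev (i + 1).succ) x m n = _
  rw [hadd _ _ hABC hD, hadd _ _ hAB hC, hadd _ _ hA hB, dOne_smul_const (hn i), dOne_smul_const (hμ (i + 1)),
    dOne_smul_const (hn (i + 2)), dOne_smul_grad (hμ (i + 1)) (hμ (i + 2))]
  simp only [P247.pd, fderiv_fun_neg, neg_apply]
  ring

omit hμ in
theorem isHK_of (x : R4) {ω : Fin 3 → Form} (h0 : ∀ i l, ω i 0 (Fin.succ l) = jac μ x i l)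
    (h1 : ∀ i, ω i 1 2 = jac μ x (i + 1) 0 * jac μ x (i + 2) 1 - jac μ x (i + 1) 1 * jac μ x (i + 2) 0 ∧
      ω i 1 3 = jac μ x (i + 1) 0 * jac μ x (i + 2) 2 - jac μ x (i + 1) 2 * jac μ x (i + 2) 0 ∧
      ω i 2 3 = jac μ x (i + 1) 1 * jac μ x (i + 2) 2 - jac μ x (i + 1) 2 * jac μ x (i + 2) 1) (i j : Fin 3) :
    wedge (ω i) (ω j) = if i = j then 2 * jdet μ x else 0 := by
  have a : ∀ i, ω i 0 1 = jac μ x i 0 ∧ ω i 0 2 = jac μ x i 1 ∧ ω i 0 3 = jac μ x i 2 := fun i =>
    ⟨h0 i 0, h0 i 1, h0 i 2⟩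
  simp only [wedge, (a i).1, (a i).2.1, (a i).2.2, (a j).1, (a j).2.1, (a j).2.2, (h1 i).1, (h1 i).2.1, (h1 i).2.2,
    (h1 j).1, (h1 j).2.1, (h1 j).2.2]
  fin_cases i <;> fin_cases j <;>
    simp [jdet, show (1 : Fin 3) + 1 = 2 from rfl, show (1 : Fin 3) + 2 = 0 from rfl,
      show (2 : Fin 3) + 1 = 0 from rfl, show (2 : Fin 3) + 2 = 1 from rfl] <;> ring

theorem triple_endPrim (hinv : ∀ i x, pd (μ i) 0 x = 0) (x : R4) :
    (∀ i l, triple (endPrim μ) x i 0 (Fin.succ l) = jac μ x i l) ∧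
      ∀ i j, wedge (triple (endPrim μ) x i) (triple (endPrim μ) x j) = if i = j then 2 * jdet μ x else 0 := by
  have h0 : ∀ i l, triple (endPrim μ) x i 0 (Fin.succ l) = jac μ x i l := fun i l => by
    simp only [triple, Pi.add_apply, dOne_endPrim hμ, hinv, jac]
    fin_cases i <;> fin_cases l <;> simp [hk0, elemForm, ev, Pi.single_apply]
  refine ⟨h0, isHK_of x h0 fun i => ?_⟩
  simp only [triple, Pi.add_apply, dOne_endPrim hμ, jac]
  fin_cases i <;>
    simp [hk0, elemForm, ev, Pi.single_apply, show (1 : Fin 3) + 1 = 2 from rfl, show (1 : Fin 3) + 2 = 0 from rfl,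
      show (2 : Fin 3) + 1 = 0 from rfl, show (2 : Fin 3) + 2 = 1 from rfl] <;>
    refine ⟨?_, ?_, ?_⟩ <;> ring

/-- The vector field whose divergence is the determinant minus one. -/
def flux (x : R4) : Fin 4 → ℝ :=
  ![0,
    μ 0 x * (jac μ x 1 1 * jac μ x 2 2 - jac μ x 1 2 * jac μ x 2 1),
    μ 0 x * (jac μ x 1 2 * jac μ x 2 0 - jac μ x 1 0 * jac μ x 2 2) + μ 1 x * jac μ x 2 2,
    μ 0 x * (jac μ x 1 0 * jac μ x 2 1 - jac μ x 1 1 * jac μ x 2 0) - μ 1 x * jac μ x 2 1 + μ 2 x]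

omit hμ in
theorem jac_periodic {v : R4} (hv : ∀ i x, μ i (x + v) = μ i x) (x : R4) (i l : Fin 3) :
    jac μ (x + v) i l = jac μ x i l := by
  simp only [jac, P247.pd]
  have e : fderiv ℝ (fun y => μ i (y + v)) x = fderiv ℝ (μ i) x := by rw [show (fun y => μ i (y + v)) = μ i from funext (hv i)]
  rw [fderiv_comp_add_right] at e
  rw [e]

theorem flux_periodic {v : R4} (hv : ∀ i x, μ i (x + v) = μ i x) (x : R4) : flux (μ := μ) (x + v) = flux (μ := μ) x := by
  simp only [flux, hv, jac_periodic hv]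

theorem smooth_jac (i l : Fin 3) : Smooth fun x => jac μ x i l := fun n => contDiff_const.add ((hμ i).pd l.succ n)

theorem smooth_flux (k : Fin 4) : Smooth fun x => flux (μ := μ) x k := fun n => by
  have := hμ 0 n
  have := hμ 1 n
  have := hμ 2 n
  have hj : ∀ i l, ContDiff ℝ n fun x => jac μ x i l := fun i l => smooth_jac hμ i l n
  fin_cases k <;> simp [flux] <;> fun_prop (disch := assumption)

theorem div_flux (x : R4) : ∑ k, pd (fun y => flux (μ := μ) y k) k x = jdet μ x - 1 := by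
  have dj : ∀ i l, DifferentiableAt ℝ (fun y => jac μ y i l) x := fun i l => (smooth_jac hμ i l).diff x
  have dm : ∀ i, DifferentiableAt ℝ (μ i) x := fun i => (hμ i).diff x
  have pj : ∀ i l m, fderiv ℝ (fun y => jac μ y i l) x (ev m) = pd (pd (μ i) l.succ) m x := fun i l m => by
    simp only [jac, fderiv_const_add]; rfl
  have s : ∀ i a b, pd (pd (μ i) a) b x = pd (pd (μ i) b) a x := fun i a b => pd_pd (hμ i) a b x
  have d12 : ∀ a b c d, DifferentiableAt ℝ (fun y => jac μ y 1 a * jac μ y 2 b - jac μ y 1 c * jac μ y 2 d) x :=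
    fun a b c d => ((dj 1 a).mul (dj 2 b)).sub ((dj 1 c).mul (dj 2 d))
  simp only [Fin.sum_univ_four, P247.pd, flux, Matrix.cons_val_zero, Matrix.cons_val_one, Matrix.cons_val]
  simp (disch := first | fun_prop | apply dj | apply dm | apply d12) only [fderiv_fun_add, fderiv_fun_sub, fderiv_fun_mul,
    fderiv_const_apply, zero_apply, add_apply, sub_apply, smul_apply, smul_eq_mul, pj]
  simp only [jdet, jac, P247.pd, Fin.isValue, show (0 : Fin 3).succ = (1 : Fin 4) from rfl,
    show (1 : Fin 3).succ = (2 : Fin 4) from rfl, show (2 : Fin 3).succ = (3 : Fin 4) from rfl]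
  have s' : ∀ i a b, fderiv ℝ (pd (μ i) a) x (ev b) = fderiv ℝ (pd (μ i) b) x (ev a) := s
  simp only [s' 1 2 1, s' 1 3 1, s' 1 3 2, s' 2 2 1, s' 2 3 1, s' 2 3 2]
  simp
  ring

end

end Vale.Agent.P247
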