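import Mathlib
import Vale.Agent.P247.Basic
import Vale.Agent.P247.Target

/-!
# P247: a periodic divergence cannot be everywhere below minus one
-/

open Set MeasureTheory

namespace Vale.Agent.P247

noncomputable section

theorem exists_bound {P : Fin 4 → R4} (hP : LinearIndependent ℝ P) {f : R4 → ℝ} (hf : Continuous f)
    (hper : ∀ k x, f (x + P k) = f x) : ∃ M, ∀ x, |f x| ≤ M := by
  let L : (Fin 4 → ℝ) → R4 := fun r => ∑ k, r k • P k
  have hL : Continuous L := by fun_prop
  obtain ⟨M, hM⟩ := ((isCompact_univ_pi fun _ : Fin 4 => isCompact_Icc (a := (0:ℝ)) (b := 1)).image hL).exists_bound_of_continuousOn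
    hf.continuousOn
  refine ⟨M, fun x => ?_⟩
  have hsurj : x ∈ Submodule.span ℝ (range P) := by
    rw [hP.span_eq_top_of_card_eq_finrank (by simp)]; trivial
  obtain ⟨r, hr⟩ := (Submodule.mem_span_range_iff_exists_fun ℝ).1 hsurj
  have hp : Function.Periodic f (∑ k, ⌊r k⌋ • P k) := by
    refine Finset.sum_induction (fun k => ⌊r k⌋ • P k) (Function.Periodic f) (fun u v hu hv => hu.add_period hv)
      (fun y => by simp) fun k _ => ?_
    exact Function.Periodic.zsmul (fun y => hper k y) _
  have hx : x = L (fun k => Int.fract (r k)) + ∑ k, ⌊r k⌋ • P k := by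
    simp only [L, ← hr, ← Finset.sum_add_distrib]
    refine Finset.sum_congr rfl fun k _ => ?_
    rw [← Int.cast_smul_eq_zsmul ℝ, ← add_smul, Int.fract_add_floor]
  rw [hx, hp, ← Real.norm_eq_abs]
  exact hM _ ⟨_, fun k _ => ⟨Int.fract_nonneg _, (Int.fract_lt_one _).le⟩, rfl⟩

theorem not_div_le {F : R4 → Fin 4 → ℝ} (hF : ∀ k, Smooth fun x => F x k) {M : ℝ} (hM : ∀ x k, |F x k| ≤ M) :
    ¬ ∀ x, ∑ k, pd (fun y => F y k) k x ≤ -1 := fun hle => by
  set R := 8 * |M| + 1 with hR
  have hR0 : 0 < R := by positivity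
  have hsum : Continuous fun x => ∑ k, pd (fun y => F y k) k x :=
    continuous_finsetSum _ fun k _ => ((hF k).pd k 0).continuous
  have hdiv := integral_divergence_of_hasFDerivAt_off_countable' (E := ℝ) (0 : R4) (fun _ => R)
    (fun _ => hR0.le) (fun k x => F x k) (fun k x => fderiv ℝ (fun y => F y k) x) ∅ countable_empty
    (fun k => ((hF k) 0).continuous.continuousOn) (fun x _ k => ((hF k).diff x).hasFDerivAt)
    (hsum.continuousOn.integrableOn_Icc)
  change (∫ x in Icc (0 : R4) (fun _ => R), ∑ k, pd (fun y => F y k) k x) = _ at hdiv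
  have hlow : (∫ x in Icc (0 : R4) (fun _ => R), ∑ k, pd (fun y => F y k) k x) ≤ -R ^ 4 := by
    have h := setIntegral_mono_on (μ := volume) (s := Icc (0 : R4) fun _ => R) hsum.continuousOn.integrableOn_Icc
      (g := fun _ => (-1:ℝ)) (continuousOn_const.integrableOn_Icc) measurableSet_Icc fun x _ => hle x
    refine h.trans (le_of_eq ?_)
    rw [setIntegral_const, measureReal_def,
      Real.volume_Icc_pi_toReal (a := (0 : R4)) (b := fun _ => R) (fun _ => hR0.le)]
    simp
  have hvol : ∀ k : Fin 4, volume.real (Icc ((0 : R4) ∘ k.succAbove) ((fun _ => R) ∘ k.succAbove)) = R ^ 3 :=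
    fun k => by
    have e : ((0 : R4) ∘ k.succAbove) ≤ ((fun _ => R) ∘ k.succAbove) := fun _ => hR0.le
    rw [measureReal_def, Real.volume_Icc_pi_toReal e]
    simp
  have hface : ∀ (k : Fin 4) (g : (Fin 3 → ℝ) → ℝ), (∀ x, |g x| ≤ |M|) →
      |∫ x in Icc ((0 : R4) ∘ k.succAbove) ((fun _ => R) ∘ k.succAbove), g x| ≤ |M| * R ^ 3 := fun k g hg => by
    rw [← hvol k, ← Real.norm_eq_abs]
    exact norm_setIntegral_le_of_norm_le_const measure_Icc_lt_top fun x _ => by rw [Real.norm_eq_abs]; exact hg x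
  have hb : -(8 * |M| * R ^ 3) ≤ ∫ x in Icc (0 : R4) (fun _ => R), ∑ k, pd (fun y => F y k) k x := by
    rw [hdiv, show -(8 * |M| * R ^ 3) = ∑ _k : Fin 4, (-(2 * |M| * R ^ 3)) by simp; ring]
    refine Finset.sum_le_sum fun k _ => ?_
    have h1 := abs_le.1 (hface k (fun x => F (k.insertNth R x) k) fun x => (hM _ _).trans (le_abs_self _))
    have h2 := abs_le.1 (hface k (fun x => F (k.insertNth 0 x) k) fun x => (hM _ _).trans (le_abs_self _))
    simp only [Pi.zero_apply]
    linarith
  have e : R ^ 4 = R * R ^ 3 := by ring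
  have : 0 < R ^ 3 := pow_pos hR0 3
  rw [e] at hlow
  rw [hR] at hlow hb this
  linarith

variable {P : Fin 4 → R4} {μ : Fin 3 → R4 → ℝ}

/-- The Jacobian of a periodic perturbation of the identity is positive if it never vanishes. -/
theorem jdet_pos (hP : LinearIndependent ℝ P) (hμ : ∀ i, Smooth (μ i)) (hper : ∀ k i x, μ i (x + P k) = μ i x)
    (hne : ∀ x, jdet μ x ≠ 0) (x : R4) : 0 < jdet μ x := by
  have hcont : Continuous (jdet μ) := by
    have hj : ∀ i l, Continuous fun x => jac μ x i l := fun i l => (smooth_jac hμ i l 0).continuous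
    unfold jdet; fun_prop
  obtain ⟨y, hy⟩ : ∃ y, 0 < jdet μ y := by
    by_contra hall
    push Not at hall
    choose M hM using fun k => exists_bound hP (smooth_flux hμ k 0).continuous
      (fun j x => by rw [flux_periodic hμ (hper j) x])
    exact not_div_le (smooth_flux hμ) (M := ∑ k, M k)
      (fun x k => (hM k x).trans (Finset.single_le_sum (f := M)
        (fun j _ => (abs_nonneg _).trans (hM j x)) (Finset.mem_univ k)))
      fun x => by rw [div_flux hμ]; linarith [hall x]
  by_contra hlt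
  obtain ⟨z, hz⟩ := intermediate_value_univ x y hcont ⟨not_lt.1 hlt, hy.le⟩
  exact hne z hz

end

end Vale.Agent.P247
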